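import Vale.Agent.Snaky.Sound
import Vale.Agent.Snaky.Data.Cert

namespace Vale.Agent.Snaky

theorem ok1 : d1.all (chkPat cert.get) = true := by decide +kernel

theorem ok5 : d5.all (chkPat cert.get) = true := by decide +kernel

theorem ok9 : d9.all (chkPat cert.get) = true := by decide +kernel

theorem ok13 : d13.all (chkPat cert.get) = true := by decide +kernel

theorem ok17 : d17.all (chkPat cert.get) = true := by decide +kernel

theorem ok21 : d21.all (chkPat cert.get) = true := by decide +kernel

end Vale.Agent.Snaky
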