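import Vale.Agent.Snaky.Sound
import Vale.Agent.Snaky.Data.Cert

namespace Vale.Agent.Snaky

theorem ok2 : d2.all (chkPat cert.get) = true := by decide +kernel

theorem ok6 : d6.all (chkPat cert.get) = true := by decide +kernel

theorem ok10 : d10.all (chkPat cert.get) = true := by decide +kernel

theorem ok14 : d14.all (chkPat cert.get) = true := by decide +kernel

theorem ok18 : d18.all (chkPat cert.get) = true := by decide +kernel

theorem ok22 : d22.all (chkPat cert.get) = true := by decide +kernel

end Vale.Agent.Snaky
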