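import Vale.Agent.Snaky.Sound
import Vale.Agent.Snaky.Data.Cert

namespace Vale.Agent.Snaky

theorem ok3 : d3.all (chkPat cert.get) = true := by decide +kernel

theorem ok7 : d7.all (chkPat cert.get) = true := by decide +kernel

theorem ok11 : d11.all (chkPat cert.get) = true := by decide +kernel

theorem ok15 : d15.all (chkPat cert.get) = true := by decide +kernel

theorem ok19 : d19.all (chkPat cert.get) = true := by decide +kernel

theorem ok23 : d23.all (chkPat cert.get) = true := by decide +kernel

end Vale.Agent.Snaky
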